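import Mathlib.Algebra.MvPolynomial.Eval
import Mathlib.Data.Real.Basic
import Mathlib.Algebra.BigOperators.Fin

/-!
The polynomials whose values at stereographic coordinates are the values of quadratic (`jp`) and
affine (`hp`) functions on the sphere, up to powers of `1 + |s|²`.
-/

namespace Vale.Agent.P058

open MvPolynomial

/-- the index set of the basis `1, |s|⁴, s_k, s_k |s|², s_j s_i (i ≤ j)` -/
abbrev JJ (m : ℕ) : Type := Unit ⊕ Unit ⊕ Fin m ⊕ Fin m ⊕ ((j : Fin m) × Fin ((j : ℕ) + 1))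

/-- the basis `1, |s|⁴, s_k, s_k |s|², s_j s_i (i ≤ j)` -/
noncomputable def jp {m : ℕ} : JJ m → MvPolynomial (Fin m) ℝ
  | .inl _ => 1
  | .inr (.inl _) => (∑ k, X k ^ 2) ^ 2
  | .inr (.inr (.inl k)) => X k
  | .inr (.inr (.inr (.inl k))) => X k * ∑ l, X l ^ 2
  | .inr (.inr (.inr (.inr p))) => X p.1 * X (p.2.castLE p.1.2)

/-- the functions `1 + |s|², |s|² - 1, 2 s_k` -/
noncomputable def hp {m : ℕ} : Option (Fin (m + 1)) → MvPolynomial (Fin m) ℝ
  | none => ∑ k, X k ^ 2 + 1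
  | some i => Fin.cases (∑ k, X k ^ 2 - 1) (fun k => C 2 * X k) i

end Vale.Agent.P058
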