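import Vale.Agent.P058.FinDefs
import Mathlib.RingTheory.TensorProduct.Basic
import Mathlib.MeasureTheory.Constructions.Pi
import Mathlib.MeasureTheory.Measure.Lebesgue.Basic

namespace Vale.Agent.P058

open TensorProduct

/-- `A` has a tensor profile: there are finitely many pairs of affine functionals
`(y_j, y'_j) = (affv (a j) (b j), affv (a' j) (b' j))` such that the element
`∑ j, y_j v ⊗ y'_j v` of `ℝ ⊗[ℚ] ℝ` is the same for all `v ∈ A`, and
`∑ j, (y_j v - y_j w) (y'_j v - y'_j w) = |v - w|²` for all `v, w ∈ A`. -/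
def HasTensorProfile {n : ℕ} (A : Set (EuclideanSpace ℝ (Fin n))) : Prop :=
  ∃ (k : ℕ) (a a' : Fin k → Fin n → ℝ) (b b' : Fin k → ℝ), ∀ v ∈ A, ∀ w ∈ A,
    ∑ j, affv (a j) (b j) v ⊗ₜ[ℚ] affv (a' j) (b' j) v =
      ∑ j, affv (a j) (b j) w ⊗ₜ[ℚ] affv (a' j) (b' j) w ∧
    ∑ j, (affv (a j) (b j) v - affv (a j) (b j) w) *
      (affv (a' j) (b' j) v - affv (a' j) (b' j) w) = dist v w ^ 2

/-- Every real function on `A` is the restriction of a polynomial of degree at most two, that is,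
the points of `A` impose independent conditions on quadrics. -/
def QuadricIndependent {n : ℕ} (A : Set (EuclideanSpace ℝ (Fin n))) : Prop :=
  ∀ f : EuclideanSpace ℝ (Fin n) → ℝ, ∃ (Q : Fin n → Fin n → ℝ) (c : Fin n → ℝ) (e : ℝ),
    ∀ v ∈ A, f v = ∑ k, ∑ l, Q k l * (v k * v l) + ∑ k, c k * v k + e

/-- The point of the unit sphere of `ℝ^(m+1)` with stereographic coordinates `s`:
`((|s|² - 1) / (|s|² + 1), 2 s_1 / (|s|² + 1), …, 2 s_m / (|s|² + 1))`. -/
noncomputable def sphPt {m : ℕ} (s : Fin m → ℝ) : EuclideanSpace ℝ (Fin (m + 1)) :=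
  WithLp.toLp 2 (Fin.cons ((∑ k, s k ^ 2 - 1) / (∑ k, s k ^ 2 + 1))
    fun k => 2 * s k / (∑ k, s k ^ 2 + 1))

/-- The threshold: `6` on the circle (`m = 1`), and `d (d + 3) / 2` on the unit sphere of `ℝ^d`,
`d = m + 1 ≥ 3`. -/
def threshold (m : ℕ) : ℕ := if m = 1 then 6 else (m + 1) * (m + 4) / 2

end Vale.Agent.P058
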