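import Mathlib.LinearAlgebra.Dimension.Constructions
import Mathlib.LinearAlgebra.FiniteDimensional.Lemmas
import Mathlib.Data.Real.Basic
import Mathlib.Tactic

namespace Vale.Agent.P058

open Finset

theorem exists_all_ne {n : ℕ} (M : Submodule ℝ (Fin n → ℝ)) (h : ∀ i, ∃ μ ∈ M, μ i ≠ 0) :
    ∃ μ ∈ M, ∀ i, μ i ≠ 0 := by
  classical
  suffices H : ∀ I : Finset (Fin n), ∃ μ ∈ M, ∀ i ∈ I, μ i ≠ 0 by
    obtain ⟨μ, hμ, hI⟩ := H Finset.univ
    exact ⟨μ, hμ, fun i => hI i (Finset.mem_univ i)⟩
  intro I
  induction I using Finset.induction_on with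
  | empty => exact ⟨0, M.zero_mem, fun i hi => absurd hi (Finset.notMem_empty i)⟩
  | insert a I ha ih =>
    obtain ⟨μ, hμ, hI⟩ := ih
    by_cases hμa : μ a = 0
    · obtain ⟨ν, hν, hνa⟩ := h a
      obtain ⟨t, ht⟩ := Infinite.exists_notMem_finset
        (insert (0 : ℝ) (I.image fun i => -(μ i / ν i)))
      rw [Finset.mem_insert, not_or, Finset.mem_image, not_exists] at ht
      refine ⟨μ + t • ν, M.add_mem hμ (M.smul_mem t hν), fun i hi => ?_⟩
      rw [Pi.add_apply, Pi.smul_apply, smul_eq_mul]
      rcases Finset.mem_insert.1 hi with rfl | hi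
      · rw [hμa, zero_add]
        exact mul_ne_zero ht.1 hνa
      · by_cases hν0 : ν i = 0
        · rw [hν0, mul_zero, add_zero]
          exact hI i hi
        · intro h0
          apply ht.2 i
          refine ⟨hi, ?_⟩
          field_simp
          linarith only [h0]
    · exact ⟨μ, hμ, fun i hi => by
        rcases Finset.mem_insert.1 hi with rfl | hi
        · exact hμa
        · exact hI i hi⟩

theorem exists_full_support {J : Type} [Fintype J] {n : ℕ} (a : J → Fin n → ℝ)
    (hn : Fintype.card J < n)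
    (h : ∀ S : Finset (Fin n), S.card ≤ Fintype.card J → ∀ g : Fin n → ℝ,
      ∃ c : J → ℝ, ∀ i ∈ S, ∑ j, c j * a j i = g i) :
    ∃ μ : Fin n → ℝ, (∀ i, μ i ≠ 0) ∧ ∀ j, ∑ i, μ i * a j i = 0 := by
  classical
  let f : (Fin n → ℝ) →ₗ[ℝ] (J → ℝ) :=
    { toFun := fun μ j => ∑ i, μ i * a j i
      map_add' := fun μ ν => by
        funext j
        simp only [Pi.add_apply, add_mul, Finset.sum_add_distrib]
      map_smul' := fun r μ => by
        funext j
        simp only [Pi.smul_apply, smul_eq_mul, RingHom.id_apply, Finset.mul_sum, mul_assoc] }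
  have hf : ∀ μ j, f μ j = ∑ i, μ i * a j i := fun _ _ => rfl
  obtain ⟨μ, hμ, hne⟩ := exists_all_ne (LinearMap.ker f) (by
    intro i₀
    obtain ⟨S, hiS, -, hS⟩ := Finset.exists_subsuperset_card_eq (s := {i₀})
      (t := (Finset.univ : Finset (Fin n))) (n := Fintype.card J + 1) (Finset.subset_univ _)
      (by rw [Finset.card_singleton]; omega) (by rw [Finset.card_univ, Fintype.card_fin]; omega)
    have hi₀ : i₀ ∈ S := hiS (Finset.mem_singleton_self _)
    let e : (S → ℝ) →ₗ[ℝ] (Fin n → ℝ) :=
      { toFun := fun w i => if hi : i ∈ S then w ⟨i, hi⟩ else 0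
        map_add' := fun w w' => by
          funext i
          by_cases hi : i ∈ S <;> simp [hi]
        map_smul' := fun r w => by
          funext i
          by_cases hi : i ∈ S <;> simp [hi] }
    have hlt : Module.finrank ℝ (J → ℝ) < Module.finrank ℝ (S → ℝ) := by
      rw [Module.finrank_fintype_fun_eq_card, Module.finrank_fintype_fun_eq_card,
        Fintype.card_coe, hS]
      omega
    obtain ⟨w, hw, hw0⟩ := Submodule.exists_mem_ne_zero_of_ne_bot
      (LinearMap.ker_ne_bot_of_finrank_lt (f := f.comp e) hlt)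
    refine ⟨e w, hw, fun h0 => hw0 ?_⟩
    have hker : ∀ j, ∑ i, e w i * a j i = 0 := fun j => congrFun hw j
    obtain ⟨c, hc⟩ := h (S.erase i₀) (by rw [Finset.card_erase_of_mem hi₀, hS]; omega) (e w)
    have h1 : ∑ i, e w i * e w i = 0 := by
      have h2 : ∑ i, e w i * e w i = ∑ i, e w i * ∑ j, c j * a j i := by
        refine Finset.sum_congr rfl fun i _ => ?_
        by_cases hi : i ∈ S
        · by_cases hii : i = i₀
          · rw [hii, h0, zero_mul, zero_mul]
          · rw [hc i (Finset.mem_erase.2 ⟨hii, hi⟩)]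
        · have : e w i = 0 := dif_neg hi
          rw [this, zero_mul, zero_mul]
      rw [h2]
      have h3 : ∑ i, e w i * ∑ j, c j * a j i = ∑ j, c j * ∑ i, e w i * a j i := by
        simp only [Finset.mul_sum]
        rw [Finset.sum_comm]
        exact Finset.sum_congr rfl fun j _ => Finset.sum_congr rfl fun i _ => by ring
      rw [h3]
      simp only [hker, mul_zero, Finset.sum_const_zero]
    have h4 := (Finset.sum_eq_zero_iff_of_nonneg fun i _ => mul_self_nonneg (e w i)).1 h1
    funext i
    have h5 := mul_self_eq_zero.1 (h4 i (Finset.mem_univ _))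
    have h6 : e w i = w i := by
      show (if hi : (i : Fin n) ∈ S then w ⟨i, hi⟩ else 0) = w i
      rw [dif_pos i.2]
    rw [← h6, h5]
    rfl)
  exact ⟨μ, hne, fun j => congrFun hμ j⟩

end Vale.Agent.P058
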