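import Vale.Agent.P058.H840.Trans

/-!
Interpolation by the `jp` gives interpolation by quadratic functions on the sphere; the tensor
criterion; quadric independence.
-/

namespace Vale.Agent.P058

open Finset MvPolynomial TensorProduct

/-- Every `jp j` is a quadratic form in the `hp k`. -/
theorem exists_quad_jp {m : ℕ} (j : JJ m) : ∃ D : Option (Fin (m + 1)) → Option (Fin (m + 1)) → ℝ,
    ∀ s : Fin m → ℝ, eval s (jp j) = ∑ k, ∑ l, D k l * (eval s (hp k) * eval s (hp l)) := by
  classical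
  have hprod : ∀ (F G : (Fin m → ℝ) → ℝ) (d d' : Option (Fin (m + 1)) → ℝ),
      (∀ s, F s = ∑ k, d k * eval s (hp k)) → (∀ s, G s = ∑ k, d' k * eval s (hp k)) →
      ∀ s, F s * G s = ∑ k, ∑ l, (d k * d' l) * (eval s (hp k) * eval s (hp l)) := by
    intro F G d d' hF hG s
    rw [hF, hG, Finset.sum_mul_sum]
    exact Finset.sum_congr rfl fun k _ => Finset.sum_congr rfl fun l _ => by ring
  have L1 : ∃ d : Option (Fin (m + 1)) → ℝ, ∀ s : Fin m → ℝ, (1 : ℝ) = ∑ k, d k * eval s (hp k) := by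
    refine ⟨fun k => match k with
      | none => 1 / 2
      | some i => Fin.cases (-(1 / 2)) (fun _ => 0) i, fun s => ?_⟩
    rw [Fintype.sum_option, Fin.sum_univ_succ]
    simp only [Fin.cases_zero, Fin.cases_succ, zero_mul, Finset.sum_const_zero, add_zero, hp,
      map_add, map_sub, map_sum, map_pow, eval_X, map_one]
    ring
  have Lr : ∃ d : Option (Fin (m + 1)) → ℝ, ∀ s : Fin m → ℝ,
      (∑ k, s k ^ 2 : ℝ) = ∑ k, d k * eval s (hp k) := by
    refine ⟨fun k => match k with
      | none => 1 / 2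
      | some i => Fin.cases (1 / 2) (fun _ => 0) i, fun s => ?_⟩
    rw [Fintype.sum_option, Fin.sum_univ_succ]
    simp only [Fin.cases_zero, Fin.cases_succ, zero_mul, Finset.sum_const_zero, add_zero, hp,
      map_add, map_sub, map_sum, map_pow, eval_X, map_one]
    ring
  have Lx : ∀ k : Fin m, ∃ d : Option (Fin (m + 1)) → ℝ, ∀ s : Fin m → ℝ,
      s k = ∑ k, d k * eval s (hp k) := by
    intro k
    refine ⟨fun l => if l = some k.succ then 1 / 2 else 0, fun s => ?_⟩
    simp only [ite_mul, zero_mul, Finset.sum_ite_eq', Finset.mem_univ, if_true, hp, Fin.cases_succ,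
      map_mul, eval_C, eval_X]
    ring
  obtain ⟨d1, h1⟩ := L1
  obtain ⟨dr, hr⟩ := Lr
  choose dx hx using Lx
  match j with
  | .inl _ =>
    refine ⟨fun k l => d1 k * d1 l, fun s => ?_⟩
    rw [← hprod (fun _ => 1) (fun _ => 1) d1 d1 h1 h1 s]
    simp only [jp, map_one, mul_one]
  | .inr (.inl _) =>
    refine ⟨fun k l => dr k * dr l, fun s => ?_⟩
    rw [← hprod (fun s => ∑ k, s k ^ 2) (fun s => ∑ k, s k ^ 2) dr dr hr hr s]
    simp only [jp, map_pow, map_sum, eval_X]
    ring
  | .inr (.inr (.inl k)) =>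
    refine ⟨fun i l => dx k i * d1 l, fun s => ?_⟩
    rw [← hprod (fun s => s k) (fun _ => 1) (dx k) d1 (hx k) h1 s]
    simp only [jp, eval_X, mul_one]
  | .inr (.inr (.inr (.inl k))) =>
    refine ⟨fun i l => dx k i * dr l, fun s => ?_⟩
    rw [← hprod (fun s => s k) (fun s => ∑ k, s k ^ 2) (dx k) dr (hx k) hr s]
    simp only [jp, map_mul, map_pow, map_sum, eval_X]
  | .inr (.inr (.inr (.inr p))) =>
    refine ⟨fun i l => dx p.1 i * dx (p.2.castLE p.1.2) l, fun s => ?_⟩
    rw [← hprod (fun s => s p.1) (fun s => s (p.2.castLE p.1.2)) (dx p.1) (dx (p.2.castLE p.1.2))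
      (hx _) (hx _) s]
    simp only [jp, map_mul, eval_X]

/-- Interpolation on the whole set gives a profile. -/
theorem signed_of_interp {m n : ℕ} (s : Fin n → Fin m → ℝ)
    (h : ∀ g : Fin n → ℝ, ∃ c : JJ m → ℝ, ∀ i, ∑ j, c j * eval (s i) (jp j) = g i) :
    HasSignedProfile (Set.range fun i => sphPt (s i)) := by
  classical
  choose D hD using fun j : JJ m => exists_quad_jp j
  have hsph : ∀ t : Fin m → ℝ, dist (sphPt t) 0 = 1 := by
    intro t
    have hq := (q_pos t).ne'
    rw [dist_zero_right, EuclideanSpace.norm_eq, Real.sqrt_eq_one]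
    rw [Fin.sum_univ_succ]
    simp only [Real.norm_eq_abs, sq_abs, sphPt_zero, sphPt_succ]
    have e : ∑ k : Fin m, (2 * t k / (∑ k, t k ^ 2 + 1)) ^ 2 =
        4 / (∑ k, t k ^ 2 + 1) ^ 2 * ∑ k, t k ^ 2 := by
      rw [Finset.mul_sum]
      exact Finset.sum_congr rfl fun k _ => by rw [div_pow, mul_pow]; ring
    rw [e]
    field_simp
    ring
  refine signed_of_quadric (Set.finite_range _) 0 1 (by rintro _ ⟨i, rfl⟩; exact hsph _) ?_
  intro f
  obtain ⟨c, hc⟩ := h fun i => (∑ k, s i k ^ 2 + 1) ^ 2 * f (sphPt (s i))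
  refine ⟨fun k l => ∑ j, c j * D j k l, ?_⟩
  rintro _ ⟨i, rfl⟩
  have hq := (q_pos (s i)).ne'
  have h1 := hc i
  have h2 : ∑ j, c j * eval (s i) (jp j) = (∑ k, s i k ^ 2 + 1) ^ 2 *
      ∑ k, ∑ l, (∑ j, c j * D j k l) * (hat (sphPt (s i)) k * hat (sphPt (s i)) l) := by
    have e1 : ∀ j, c j * eval (s i) (jp j) = ∑ k, ∑ l, (∑ k, s i k ^ 2 + 1) ^ 2 *
        (c j * D j k l * (hat (sphPt (s i)) k * hat (sphPt (s i)) l)) := by
      intro j
      rw [hD, Finset.mul_sum]
      refine Finset.sum_congr rfl fun k _ => ?_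
      rw [Finset.mul_sum]
      refine Finset.sum_congr rfl fun l _ => ?_
      rw [eval_hp, eval_hp]
      ring
    rw [Finset.sum_congr rfl fun j _ => e1 j, Finset.sum_comm, Finset.mul_sum]
    refine Finset.sum_congr rfl fun k _ => ?_
    rw [Finset.sum_comm, Finset.mul_sum]
    refine Finset.sum_congr rfl fun l _ => ?_
    rw [Finset.sum_mul, Finset.mul_sum]
  rw [h2] at h1
  exact mul_left_cancel₀ (pow_ne_zero 2 hq) h1

/-- quadric-independent spherical sets -/
theorem signed_of_quadricIndependent {n : ℕ} {A : Set (E n)} (hA : A.Finite) (hS : IsSpherical A)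
    (hq : QuadricIndependent A) : HasSignedProfile A := by
  obtain ⟨z, ρ, hρ⟩ := hS
  refine signed_of_quadric hA z ρ hρ fun f => ?_
  obtain ⟨Q, c, e, h⟩ := hq f
  refine ⟨fun k l => match k, l with
    | none, none => e
    | some k, none => c k
    | none, some _ => 0
    | some k, some l => Q k l, fun v hv => ?_⟩
  rw [h v hv]
  simp only [Fintype.sum_option, hat, mul_one, zero_mul, Finset.sum_const_zero, add_zero]
  rw [Finset.sum_add_distrib]
  ring

/-- **The tensor criterion.** -/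
theorem isRamsey_iff_tensor {n : ℕ} {A : Set (E n)} (hA : A.Finite) (hne : A.Nonempty) :
    IsRamsey A ↔ HasTensorProfile A := by
  constructor
  · intro h
    obtain ⟨k, m, a, b, -, hab⟩ := (isRamsey_iff_profile hA hne).1 h
    refine ⟨k, fun j => (m j : ℝ) • a j, a, fun j => (m j : ℝ) * b j, b, fun v hv w hw => ?_⟩
    obtain ⟨h1, h2⟩ := hab v hv w hw
    have e : ∀ (j : Fin k) (x : E n), affv ((m j : ℝ) • a j) ((m j : ℝ) * b j) x =
        (m j : ℝ) * affv (a j) (b j) x := by
      intro j x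
      simp only [affv, Pi.smul_apply, smul_eq_mul, mul_add, Finset.mul_sum, mul_assoc]
    constructor
    · simp only [e]
      let T : (ℝ →₀ ℤ) →+ ℝ ⊗[ℚ] ℝ :=
        Finsupp.liftAddHom fun t => (zmultiplesHom (ℝ ⊗[ℚ] ℝ)) (t ⊗ₜ[ℚ] t)
      have hT : ∀ (x : E n), T (∑ j, Finsupp.single (affv (a j) (b j) x) (m j)) =
          ∑ j, ((m j : ℝ) * affv (a j) (b j) x) ⊗ₜ[ℚ] affv (a j) (b j) x := by
        intro x
        rw [map_sum]
        refine Finset.sum_congr rfl fun j _ => ?_
        simp only [T, Finsupp.liftAddHom_apply_single, zmultiplesHom_apply]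
        rw [← Int.cast_smul_eq_zsmul ℚ (m j), TensorProduct.smul_tmul']
        congr 1
      rw [← hT, ← hT, h1]
    · simp only [e]
      rw [← h2]
      exact Finset.sum_congr rfl fun j _ => by ring
  · rintro ⟨k, a, a', b, b', h⟩
    rw [isRamsey_iff_signed hA hne]
    have e : ∀ (a : Fin n → ℝ) (b : ℝ) (x : E n), rowv (WithLp.toLp 2 a, b) x = affv a b x := by
      intro a b x
      rw [rowv, affv, PiLp.inner_apply]
      congr 1
      refine Finset.sum_congr rfl fun i _ => ?_
      simp only [RCLike.inner_apply, conj_trivial]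
      ring
    refine signed_of_tensor hA (fun j => (WithLp.toLp 2 (a j), b j))
      (fun j => (WithLp.toLp 2 (a' j), b' j)) ?_ ?_
    · intro v hv w hw
      simp only [e]
      exact (h v hv w hw).1
    · intro v hv w hw
      simp only [e]
      exact (h v hv w hw).2

end Vale.Agent.P058
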