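import Vale.Agent.P058.H840.Interp
import Vale.Agent.P058.H987.SixC
import Vale.Agent.P058.H987.Meas
import Vale.Agent.P058.H987.Gen
import Vale.Agent.P058.H76.Unisolv
import Vale.Agent.P058.H840.Full

/-!
The sharp threshold for random points on a sphere.
-/

namespace Vale.Agent.P058

open Finset MvPolynomial MeasureTheory

lemma dist_sphPt {m : ℕ} (t : Fin m → ℝ) : dist (sphPt t) 0 = 1 := by
  have hq := (q_pos t).ne'
  rw [dist_zero_right, EuclideanSpace.norm_eq, Real.sqrt_eq_one, Fin.sum_univ_succ]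
  simp only [Real.norm_eq_abs, sq_abs, sphPt_zero, sphPt_succ]
  have e : ∑ k : Fin m, (2 * t k / (∑ k, t k ^ 2 + 1)) ^ 2 =
      4 / (∑ k, t k ^ 2 + 1) ^ 2 * ∑ k, t k ^ 2 := by
    rw [Finset.mul_sum]
    exact Finset.sum_congr rfl fun k _ => by rw [div_pow, mul_pow]; ring
  rw [e]
  field_simp
  ring

theorem ae_ramsey {m n : ℕ} (hm : 1 ≤ m) (hn : 1 ≤ n) (h : n ≤ threshold m) :
    ∀ᵐ s : Fin n × Fin m → ℝ, IsRamsey (Set.range fun i => sphPt fun k => s (i, k)) := by
  classical
  have : Nonempty (Fin n) := ⟨⟨0, hn⟩⟩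
  by_cases h1 : m = 1
  · rw [threshold, if_pos h1] at h
    refine Filter.Eventually.of_forall fun s => ?_
    rw [isRamsey_iff_signed (Set.finite_range _) (Set.range_nonempty _)]
    refine signed_of_card_le_six (Set.finite_range _) ?_ 0 1 (by
      rintro _ ⟨i, rfl⟩
      exact dist_sphPt _)
    rw [← Set.image_univ]
    refine (Set.ncard_image_le Set.finite_univ).trans ?_
    rw [Set.ncard_univ, Nat.card_eq_fintype_card, Fintype.card_fin]
    exact h
  · rw [threshold, if_neg h1] at h
    obtain ⟨p, hp'⟩ := unisolvent_jp hm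
    have hcard := two_mul_card_JJ m
    have hS : (Finset.univ : Finset (Fin n)).card ≤ Fintype.card (JJ m) := by
      rw [Finset.card_univ, Fintype.card_fin]
      omega
    filter_upwards [generic_surj (n := n) jp p hp' Finset.univ hS] with s hs
    rw [isRamsey_iff_signed (Set.finite_range _) (Set.range_nonempty _)]
    refine signed_of_interp (fun i k => s (i, k)) fun g => ?_
    obtain ⟨c, hc⟩ := hs g
    exact ⟨c, fun i => hc i (Finset.mem_univ i)⟩

theorem ae_not_ramsey {m n : ℕ} (hm : 1 ≤ m) (h : threshold m < n) :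
    ∀ᵐ s : Fin n × Fin m → ℝ, ¬ IsRamsey (Set.range fun i => sphPt fun k => s (i, k)) := by
  classical
  have hcard := two_mul_card_JJ m
  have hJ : Fintype.card (JJ m) < n := by
    by_cases h1 : m = 1
    · rw [threshold, if_pos h1] at h
      subst h1
      omega
    · rw [threshold, if_neg h1] at h
      omega
  have hcount : (m + 1) * (m + 2) < m * n := by
    by_cases h1 : m = 1
    · rw [threshold, if_pos h1] at h
      subst h1
      omega
    · have h2 : 2 ≤ m := by omega
      have h3 : Fintype.card (JJ m) + 1 ≤ n := hJ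
      have h4 : m * (Fintype.card (JJ m) + 1) ≤ m * n := Nat.mul_le_mul_left m h3
      nlinarith
  have hm2 : m + 2 ≤ n := by
    have h3 : (m + 1) * (m + 4) < 2 * n := by omega
    nlinarith
  obtain ⟨p, hp'⟩ := unisolvent_jp hm
  obtain ⟨p', hp''⟩ := unisolvent_hp hm
  obtain ⟨S₀, -, hS₀⟩ := Finset.exists_subset_card_eq (s := (Finset.univ : Finset (Fin n)))
    (n := m + 2) (by rw [Finset.card_univ, Fintype.card_fin]; exact hm2)
  have hae : ∀ᵐ s : Fin n × Fin m → ℝ, ∀ S : Finset (Fin n), S.card ≤ Fintype.card (JJ m) →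
      ∀ g : Fin n → ℝ, ∃ c : JJ m → ℝ, ∀ i ∈ S,
        ∑ j, c j * eval (fun k => s (i, k)) (jp j) = g i := by
    rw [ae_all_iff]
    intro S
    by_cases hS : S.card ≤ Fintype.card (JJ m)
    · filter_upwards [generic_surj (n := n) jp p hp' S hS] with s hs _
      exact hs
    · exact Filter.Eventually.of_forall fun s hS' => absurd hS' hS
  filter_upwards [ae_algebraicIndependent (Fin n × Fin m), hae,
    generic_surj (n := n) hp p' hp'' S₀ (by
      rw [hS₀, Fintype.card_option, Fintype.card_fin])] with s hs1 hs2 hs3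
  obtain ⟨μ, hμ, hμ0⟩ := exists_full_support (fun (j : JJ m) i => eval (fun k => s (i, k)) (jp j))
    hJ hs2
  have hrel := relation_of_jp (fun i k => s (i, k)) μ hμ0
  let q : Fin n → ℝ := fun i => ∑ k, s (i, k) ^ 2 + 1
  have hq : ∀ i, q i ≠ 0 := fun i => (q_pos fun k => s (i, k)).ne'
  have hhat : ∀ k l : Option (Fin (m + 1)), ∑ i, μ i * q i ^ 2 *
      (hat (sphPt fun k => s (i, k)) k * hat (sphPt fun k => s (i, k)) l) = 0 := by
    intro k l
    rw [← hrel k l]
    refine Finset.sum_congr rfl fun i _ => ?_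
    rw [eval_hp, eval_hp]
    simp only [q]
    ring
  refine not_ramsey_of_full (fun i k => s (i, k)) hs1 (span_of_surj _ S₀ hS₀ hs3)
    (fun i => μ i * q i ^ 2) (fun i => mul_ne_zero (hμ i) (pow_ne_zero 2 (hq i))) ?_ ?_ ?_ hcount
  · have := hhat none none
    simpa only [hat, mul_one] using this
  · intro k
    have := hhat none (some k)
    simpa only [hat, one_mul] using this
  · intro k l
    exact hhat (some k) (some l)

/-- **The sharp threshold.** -/
theorem ae_ramsey_iff {m n : ℕ} (hm : 1 ≤ m) (hn : 1 ≤ n) :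
    ∀ᵐ s : Fin n × Fin m → ℝ,
      (IsRamsey (Set.range fun i => sphPt fun k => s (i, k)) ↔ n ≤ threshold m) := by
  by_cases h : n ≤ threshold m
  · filter_upwards [ae_ramsey hm hn h] with s hs
    exact iff_of_true hs h
  · filter_upwards [ae_not_ramsey hm (not_le.1 h)] with s hs
    exact iff_of_false hs h

end Vale.Agent.P058
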