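import Vale.Agent.P058.H840.Defs
import Vale.Agent.P058.Bdl.B1

/-!
Generic sets of many points of a sphere are not Ramsey.
-/

namespace Vale.Agent.P058

open Finset

lemma sphPt_zero {m : ℕ} (s : Fin m → ℝ) :
    sphPt s 0 = (∑ k, s k ^ 2 - 1) / (∑ k, s k ^ 2 + 1) := rfl

lemma sphPt_succ {m : ℕ} (s : Fin m → ℝ) (k : Fin m) :
    sphPt s k.succ = 2 * s k / (∑ k, s k ^ 2 + 1) := rfl

/-- the velocity of `sphPt` -/
noncomputable def vel {m : ℕ} (s : Fin m → ℝ) : (Fin m → ℝ) →ₗ[ℝ] (Fin (m + 1) → ℝ) where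
  toFun σ := Fin.cons (4 * (∑ k, s k * σ k) / (∑ k, s k ^ 2 + 1) ^ 2)
    fun k => 2 * σ k / (∑ k, s k ^ 2 + 1) - 4 * s k * (∑ k, s k * σ k) / (∑ k, s k ^ 2 + 1) ^ 2
  map_add' σ τ := by
    have h : ∑ k, s k * (σ + τ) k = ∑ k, s k * σ k + ∑ k, s k * τ k := by
      rw [← Finset.sum_add_distrib]
      exact Finset.sum_congr rfl fun k _ => by rw [Pi.add_apply, mul_add]
    rw [h]
    funext i
    refine Fin.cases ?_ (fun k => ?_) i
    · simp only [Fin.cons_zero, Pi.add_apply]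
      ring
    · simp only [Fin.cons_succ, Pi.add_apply]
      ring
  map_smul' c σ := by
    have h : ∑ k, s k * (c • σ) k = c * ∑ k, s k * σ k := by
      rw [Finset.mul_sum]
      exact Finset.sum_congr rfl fun k _ => by rw [Pi.smul_apply, smul_eq_mul]; ring
    rw [h]
    funext i
    refine Fin.cases ?_ (fun k => ?_) i
    · simp only [Fin.cons_zero, Pi.smul_apply, smul_eq_mul, RingHom.id_apply]
      ring
    · simp only [Fin.cons_succ, Pi.smul_apply, smul_eq_mul, RingHom.id_apply]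
      ring

lemma vel_zero {m : ℕ} (s σ : Fin m → ℝ) :
    vel s σ 0 = 4 * (∑ k, s k * σ k) / (∑ k, s k ^ 2 + 1) ^ 2 := rfl

lemma vel_succ {m : ℕ} (s σ : Fin m → ℝ) (k : Fin m) :
    vel s σ k.succ = 2 * σ k / (∑ k, s k ^ 2 + 1) -
      4 * s k * (∑ k, s k * σ k) / (∑ k, s k ^ 2 + 1) ^ 2 := rfl

lemma q_pos {m : ℕ} (s : Fin m → ℝ) : 0 < ∑ k, s k ^ 2 + 1 := by positivity

lemma deriv_q (δ : Derivation ℚ ℝ ℝ) {m : ℕ} (s : Fin m → ℝ) :
    δ (∑ k, s k ^ 2) = 2 * ∑ k, s k * δ (s k) := by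
  rw [map_sum, Finset.mul_sum]
  refine Finset.sum_congr rfl fun k _ => ?_
  rw [sq, Derivation.leibniz, smul_eq_mul]
  ring

lemma deriv_div (δ : Derivation ℚ ℝ ℝ) (a b : ℝ) (hb : b ≠ 0) :
    δ (a / b) = (δ a * b - a * δ b) / b ^ 2 := by
  have h1 : δ (a / b * b) = δ a := by rw [div_mul_cancel₀ _ hb]
  rw [Derivation.leibniz, smul_eq_mul, smul_eq_mul] at h1
  have h2 : b * δ (a / b) = δ a - a / b * δ b := by linarith only [h1]
  field_simp at h2 ⊢
  linear_combination h2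

lemma dv_sphPt (δ : Derivation ℚ ℝ ℝ) {m : ℕ} (s : Fin m → ℝ) (i : Fin (m + 1)) :
    δ (sphPt s i) = vel s (fun k => δ (s k)) i := by
  have hq := (q_pos s).ne'
  have hd1 : δ (1 : ℝ) = 0 := Derivation.map_one_eq_zero δ
  have hd2 : δ (2 : ℝ) = 0 := by
    have : (2 : ℝ) = 1 + 1 := by norm_num
    rw [this, map_add, hd1, add_zero]
  refine Fin.cases ?_ (fun k => ?_) i
  · rw [sphPt_zero, vel_zero, deriv_div δ _ _ hq, map_sub, map_add, deriv_q, hd1]
    congr 1
    ring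
  · rw [sphPt_succ, vel_succ, deriv_div δ _ _ hq, map_add, deriv_q, hd1, Derivation.leibniz,
      smul_eq_mul, smul_eq_mul, hd2]
    field_simp
    ring

lemma norm_vel {m : ℕ} (s σ : Fin m → ℝ) :
    ∑ i, vel s σ i ^ 2 = 4 / (∑ k, s k ^ 2 + 1) ^ 2 * ∑ k, σ k ^ 2 := by
  have hq := (q_pos s).ne'
  rw [Fin.sum_univ_succ, vel_zero]
  simp only [vel_succ]
  set q := ∑ k, s k ^ 2 + 1 with hqd
  set t := ∑ k, s k * σ k with ht
  have e1 : ∑ k : Fin m, (2 * σ k / q - 4 * s k * t / q ^ 2) ^ 2 =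
      4 / q ^ 2 * (∑ k, σ k ^ 2) - 16 * t / q ^ 3 * t + 16 * t ^ 2 / q ^ 4 * (q - 1) := by
    have e2 : ∀ k : Fin m, (2 * σ k / q - 4 * s k * t / q ^ 2) ^ 2 =
        4 / q ^ 2 * σ k ^ 2 - 16 * t / q ^ 3 * (s k * σ k) + 16 * t ^ 2 / q ^ 4 * s k ^ 2 := by
      intro k
      field_simp
      ring
    rw [Finset.sum_congr rfl fun k _ => e2 k, Finset.sum_add_distrib, Finset.sum_sub_distrib,
      ← Finset.mul_sum, ← Finset.mul_sum, ← Finset.mul_sum, ← ht]
    congr 2
    rw [hqd]; ring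
  rw [e1]
  field_simp
  ring

/-- the constraints -/
noncomputable def cons0 {m n : ℕ} (s : Fin n → Fin m → ℝ) (μ : Fin n → ℝ) :
    (Fin n × Fin m → ℝ) →ₗ[ℝ] (Fin (m + 1) → ℝ) :=
  ∑ i, μ i • (vel (s i)).comp (LinearMap.funLeft ℝ ℝ fun k => (i, k))

lemma cons0_apply {m n : ℕ} (s : Fin n → Fin m → ℝ) (μ : Fin n → ℝ) (σ : Fin n × Fin m → ℝ)
    (k : Fin (m + 1)) : cons0 s μ σ k = ∑ i, μ i * vel (s i) (fun k => σ (i, k)) k := by
  simp only [cons0, LinearMap.sum_apply, LinearMap.smul_apply, Finset.sum_apply, Pi.smul_apply,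
    smul_eq_mul, LinearMap.comp_apply]
  rfl

/-- the torque constraints -/
noncomputable def cons1 {m n : ℕ} (s : Fin n → Fin m → ℝ) (μ : Fin n → ℝ) :
    (Fin n × Fin m → ℝ) →ₗ[ℝ] (((j : Fin (m + 1)) × Fin (j : ℕ)) → ℝ) where
  toFun σ p := ∑ i, μ i * (sphPt (s i) (p.2.castLE p.1.2.le) * vel (s i) (fun k => σ (i, k)) p.1 -
    sphPt (s i) p.1 * vel (s i) (fun k => σ (i, k)) (p.2.castLE p.1.2.le))
  map_add' σ τ := by
    funext p
    rw [Pi.add_apply, ← Finset.sum_add_distrib]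
    refine Finset.sum_congr rfl fun i _ => ?_
    have h : (fun k => (σ + τ) (i, k)) = (fun k => σ (i, k)) + fun k => τ (i, k) := rfl
    rw [h, map_add, Pi.add_apply, Pi.add_apply]
    ring
  map_smul' c σ := by
    funext p
    rw [Pi.smul_apply, smul_eq_mul, Finset.mul_sum]
    refine Finset.sum_congr rfl fun i _ => ?_
    have h : (fun k => (c • σ) (i, k)) = c • fun k => σ (i, k) := rfl
    rw [h, map_smul, Pi.smul_apply, Pi.smul_apply, smul_eq_mul, smul_eq_mul, RingHom.id_apply]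
    ring

/-- A subspace on which a nondegenerate diagonal form vanishes has at most half the dimension. -/
lemma two_mul_finrank_le {ι : Type*} [Fintype ι] (c : ι → ℝ) (hc : ∀ i, c i ≠ 0)
    (K : Submodule ℝ (ι → ℝ)) (hK : ∀ σ ∈ K, ∑ i, c i * σ i ^ 2 = 0) :
    2 * Module.finrank ℝ K ≤ Fintype.card ι := by
  classical
  have hpol : ∀ σ ∈ K, ∀ τ ∈ K, ∑ i, c i * (σ i * τ i) = 0 := by
    intro σ hσ τ hτ
    have h1 := hK (σ + τ) (K.add_mem hσ hτ)
    have h2 := hK σ hσ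
    have h3 := hK τ hτ
    have h4 : ∑ i, c i * (σ + τ) i ^ 2 = ∑ i, c i * σ i ^ 2 + ∑ i, c i * τ i ^ 2 +
        2 * ∑ i, c i * (σ i * τ i) := by
      rw [Finset.mul_sum, ← Finset.sum_add_distrib, ← Finset.sum_add_distrib]
      refine Finset.sum_congr rfl fun i _ => ?_
      rw [Pi.add_apply]; ring
    rw [h4, h2, h3] at h1
    linarith only [h1]
  let Ψ : (ι → ℝ) →ₗ[ℝ] Module.Dual ℝ (ι → ℝ) :=
    { toFun := fun σ => ∑ i, (c i * σ i) • LinearMap.proj i
      map_add' := fun σ τ => by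
        simp only [Pi.add_apply, mul_add, add_smul, Finset.sum_add_distrib]
      map_smul' := fun r σ => by
        simp only [Pi.smul_apply, smul_eq_mul, RingHom.id_apply, Finset.smul_sum, smul_smul]
        refine Finset.sum_congr rfl fun i _ => ?_
        congr 1
        ring }
  have hΨ : ∀ σ τ, Ψ σ τ = ∑ i, c i * (σ i * τ i) := by
    intro σ τ
    simp only [Ψ, LinearMap.coe_mk, AddHom.coe_mk, LinearMap.sum_apply, LinearMap.smul_apply,
      LinearMap.proj_apply, smul_eq_mul]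
    exact Finset.sum_congr rfl fun i _ => by ring
  have hinj : Function.Injective Ψ := by
    rw [← LinearMap.ker_eq_bot, LinearMap.ker_eq_bot']
    intro σ hσ
    funext i
    have h1 := LinearMap.congr_fun hσ (Pi.single i 1)
    rw [hΨ, LinearMap.zero_apply] at h1
    simp only [Pi.single_apply, mul_ite, mul_one, mul_zero, Finset.sum_ite_eq', Finset.mem_univ,
      if_true] at h1
    exact (mul_eq_zero.1 h1).resolve_left (hc i)
  have hle : K.map Ψ ≤ K.dualAnnihilator := by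
    rintro _ ⟨σ, hσ, rfl⟩
    rw [Submodule.mem_dualAnnihilator]
    intro τ hτ
    rw [hΨ]
    exact hpol σ hσ τ hτ
  have h1 : Module.finrank ℝ (K.map Ψ) = Module.finrank ℝ K :=
    (Submodule.equivMapOfInjective Ψ hinj K).finrank_eq.symm
  have h2 := Submodule.finrank_mono hle
  have h3 := Subspace.finrank_add_finrank_dualAnnihilator_eq K
  rw [Module.finrank_fintype_fun_eq_card] at h3
  omega

theorem not_ramsey_of_full {m n : ℕ} (s : Fin n → Fin m → ℝ)
    (hs : AlgebraicIndependent ℚ fun p : Fin n × Fin m => s p.1 p.2)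
    (hspan : affineSpan ℝ (Set.range fun i => sphPt (s i)) = ⊤)
    (μ : Fin n → ℝ) (hμ : ∀ i, μ i ≠ 0) (h0 : ∑ i, μ i = 0)
    (h1 : ∀ k, ∑ i, μ i * sphPt (s i) k = 0)
    (h2 : ∀ k l, ∑ i, μ i * (sphPt (s i) k * sphPt (s i) l) = 0)
    (hcount : (m + 1) * (m + 2) < m * n) :
    ¬ IsRamsey (Set.range fun i => sphPt (s i)) := by
  classical
  intro hR
  let C : (Fin n × Fin m → ℝ) →ₗ[ℝ] (Fin (m + 1) → ℝ) × (((j : Fin (m + 1)) × Fin (j : ℕ)) → ℝ) :=
    (cons0 s μ).prod (cons1 s μ)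
  let c : Fin n × Fin m → ℝ := fun p => μ p.1 * (4 / (∑ k, s p.1 k ^ 2 + 1) ^ 2)
  have hc : ∀ p, c p ≠ 0 := fun p => mul_ne_zero (hμ p.1)
    (div_ne_zero (by norm_num) (pow_ne_zero 2 (q_pos (s p.1)).ne'))
  have hK : ∀ σ ∈ LinearMap.ker C, ∑ p, c p * σ p ^ 2 = 0 := by
    intro σ hσ
    rw [LinearMap.mem_ker] at hσ
    have hσ0 : cons0 s μ σ = 0 := congrArg Prod.fst hσ
    have hσ1 : cons1 s μ σ = 0 := congrArg Prod.snd hσ
    obtain ⟨δ, hδ⟩ := exists_derivation hs σ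
    have hδ' : ∀ i k, δ (sphPt (s i) k) = vel (s i) (fun k => σ (i, k)) k := by
      intro i k
      rw [dv_sphPt]
      have : (fun k => δ (s i k)) = fun k => σ (i, k) := by
        funext l
        exact hδ (i, l)
      rw [this]
    have h4 : ∀ k l : Fin (m + 1), k < l → ∑ i, μ i *
        (sphPt (s i) k * δ (sphPt (s i) l) - sphPt (s i) l * δ (sphPt (s i) k)) = 0 := by
      intro k l hkl
      have h5 := congrFun hσ1 ⟨l, ⟨k, hkl⟩⟩
      simp only [hδ']
      exact h5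
    have h6 := ramsey_necessary (fun i => sphPt (s i)) hspan hR δ μ h0 h1 h2 (by
      intro k
      simp only [hδ', ← cons0_apply, hσ0, Pi.zero_apply]) (by
      intro k l
      rcases lt_trichotomy k l with h | h | h
      · exact h4 k l h
      · subst h
        simp only [sub_self, mul_zero, Finset.sum_const_zero]
      · rw [← neg_eq_zero, ← Finset.sum_neg_distrib, ← h4 l k h]
        refine Finset.sum_congr rfl fun i _ => ?_
        ring)
    rw [← h6, Fintype.sum_prod_type]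
    refine Finset.sum_congr rfl fun i _ => ?_
    have h7 : ‖dv δ (sphPt (s i))‖ ^ 2 = ∑ k, vel (s i) (fun k => σ (i, k)) k ^ 2 := by
      rw [EuclideanSpace.norm_sq_eq]
      refine Finset.sum_congr rfl fun k _ => ?_
      rw [dv_apply, hδ', Real.norm_eq_abs, sq_abs]
    rw [h7, norm_vel, Finset.mul_sum, Finset.mul_sum]
    refine Finset.sum_congr rfl fun k _ => ?_
    simp only [c]
    ring
  have hb := two_mul_finrank_le c hc (LinearMap.ker C) hK
  have hrn := LinearMap.finrank_range_add_finrank_ker C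
  have hr := Submodule.finrank_le (LinearMap.range C)
  have hcod : Module.finrank ℝ ((Fin (m + 1) → ℝ) × (((j : Fin (m + 1)) × Fin (j : ℕ)) → ℝ)) * 2 =
      (m + 1) * (m + 2) := by
    rw [Module.finrank_prod, Module.finrank_fintype_fun_eq_card,
      Module.finrank_fintype_fun_eq_card, Fintype.card_fin, Fintype.card_sigma]
    simp only [Fintype.card_fin]
    rw [Fin.sum_univ_eq_sum_range (fun i => i) (m + 1), add_mul, Finset.sum_range_id_mul_two]
    have : m + 1 - 1 = m := rfl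
    rw [this]
    ring
  rw [Module.finrank_fintype_fun_eq_card, Fintype.card_prod, Fintype.card_fin, Fintype.card_fin]
    at hrn
  rw [Fintype.card_prod, Fintype.card_fin, Fintype.card_fin] at hb
  have : n * m = m * n := mul_comm _ _
  omega

end Vale.Agent.P058
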