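import Vale.Agent.P058.H840.Tensor

/-!
Spherical sets imposing independent conditions on quadrics have a signed balanced profile.
-/

namespace Vale.Agent.P058

open Finset TensorProduct

/-- the ring of values -/
abbrev RR : Type := ℝ ⊗[ℚ] ℝ

/-- multiplication `ℝ ⊗ ℝ → ℝ` -/
noncomputable abbrev mulRR : RR →ₐ[ℚ] ℝ := Algebra.TensorProduct.lmul' ℚ

lemma mulRR_tmul (a b : ℝ) : mulRR (a ⊗ₜ[ℚ] b) = a * b := Algebra.TensorProduct.lmul'_apply_tmul a b

/-- the coordinates of a point, with a constant coordinate added -/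
def hat {n : ℕ} (v : E n) : Option (Fin n) → ℝ
  | none => 1
  | some k => v k

/-- the coordinate rows -/
noncomputable def bas {n : ℕ} : Option (Fin n) → E n × ℝ
  | none => (0, 1)
  | some k => (EuclideanSpace.single k 1, 0)

lemma rowv_bas {n : ℕ} (k : Option (Fin n)) (v : E n) : rowv (bas k) v = hat v k := by
  cases k with
  | none => simp [rowv, bas, hat]
  | some k => exact rowv_single k v

/-- The linear criterion, in matrix form. -/
theorem signed_of_matrix {n : ℕ} {A : Set (E n)} (hA : A.Finite)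
    (T : Option (Fin n) → Option (Fin n) → RR)
    (hbal : ∀ v ∈ A, ∀ w ∈ A, ∑ k, ∑ l, T k l * (hat v k ⊗ₜ[ℚ] hat v l) =
      ∑ k, ∑ l, T k l * (hat w k ⊗ₜ[ℚ] hat w l))
    (hcost : ∀ v ∈ A, ∀ w ∈ A,
      ∑ k, ∑ l, mulRR (T k l) * ((hat v k - hat w k) * (hat v l - hat w l)) = dist v w ^ 2) :
    HasSignedProfile A := by
  classical
  have : Fintype A := hA.fintype
  by_contra hno
  obtain ⟨B, L, hL, hBL⟩ := exists_quad_cert hno
  apply hL
  -- the sum of the certificates vanishes
  have hsum : (∑ v : A, TensorProduct.lift (B v)) = 0 := by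
    apply TensorProduct.ext'
    intro c c'
    have h1 := hBL ((0 : E n), c) ((0 : E n), c')
    have e1 : (fun p : A × A => (rowv ((0 : E n), c) (p.1 : E n) - rowv ((0 : E n), c) (p.2 : E n)) *
        (rowv ((0 : E n), c') (p.1 : E n) - rowv ((0 : E n), c') (p.2 : E n))) = 0 := by
      funext p
      simp [rowv]
    rw [e1, map_zero, Rat.cast_zero, add_zero] at h1
    have e2 : ∀ (x : ℝ) (v : E n), rowv ((0 : E n), x) v = x := by
      intro x v; simp [rowv]
    simp only [e2] at h1
    simpa only [LinearMap.sum_apply, TensorProduct.lift.tmul, LinearMap.zero_apply] using h1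
  -- the certificate identity with coefficients in the ring of values
  have key : ∀ (k l : Option (Fin n)) (x : RR),
      ∑ v : A, TensorProduct.lift (B v) (x * (hat (v : E n) k ⊗ₜ[ℚ] hat (v : E n) l)) +
        (L (fun p : A × A => mulRR x * ((hat (p.1 : E n) k - hat (p.2 : E n) k) *
          (hat (p.1 : E n) l - hat (p.2 : E n) l))) : ℝ) = 0 := by
    intro k l x
    induction x using TensorProduct.induction_on with
    | zero =>
      have e : (fun p : A × A => mulRR (0 : RR) * ((hat (p.1 : E n) k - hat (p.2 : E n) k) *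
          (hat (p.1 : E n) l - hat (p.2 : E n) l))) = 0 := by
        funext p
        rw [map_zero, zero_mul]
        rfl
      rw [e, map_zero, Rat.cast_zero, add_zero]
      simp only [zero_mul, map_zero, Finset.sum_const_zero]
    | tmul a b =>
      have h1 := hBL (a • bas k) (b • bas l)
      simp only [rowv_smul, rowv_bas] at h1
      have e : (fun p : A × A => mulRR (a ⊗ₜ[ℚ] b) * ((hat (p.1 : E n) k - hat (p.2 : E n) k) *
          (hat (p.1 : E n) l - hat (p.2 : E n) l))) = fun p : A × A =>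
          (a * hat (p.1 : E n) k - a * hat (p.2 : E n) k) *
          (b * hat (p.1 : E n) l - b * hat (p.2 : E n) l) := by
        funext p
        rw [mulRR_tmul]
        ring
      rw [e]
      simpa only [Algebra.TensorProduct.tmul_mul_tmul, TensorProduct.lift.tmul] using h1
    | add x y hx hy =>
      have e : (fun p : A × A => mulRR (x + y) * ((hat (p.1 : E n) k - hat (p.2 : E n) k) *
          (hat (p.1 : E n) l - hat (p.2 : E n) l))) =
          (fun p : A × A => mulRR x * ((hat (p.1 : E n) k - hat (p.2 : E n) k) *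
          (hat (p.1 : E n) l - hat (p.2 : E n) l))) +
          fun p : A × A => mulRR y * ((hat (p.1 : E n) k - hat (p.2 : E n) k) *
          (hat (p.1 : E n) l - hat (p.2 : E n) l)) := by
        funext p
        rw [map_add, add_mul]
        rfl
      rw [e, map_add, Rat.cast_add]
      simp only [add_mul, map_add, Finset.sum_add_distrib]
      linarith only [hx, hy]
  have h2 : ∑ k, ∑ l, (∑ v : A, TensorProduct.lift (B v)
      (T k l * (hat (v : E n) k ⊗ₜ[ℚ] hat (v : E n) l)) +
        (L (fun p : A × A => mulRR (T k l) * ((hat (p.1 : E n) k - hat (p.2 : E n) k) *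
          (hat (p.1 : E n) l - hat (p.2 : E n) l))) : ℝ)) = 0 :=
    Finset.sum_eq_zero fun k _ => Finset.sum_eq_zero fun l _ => key k l (T k l)
  simp only [Finset.sum_add_distrib, ← Rat.cast_sum, ← map_sum] at h2
  have e3 : (∑ k, ∑ l, fun p : A × A => mulRR (T k l) *
      ((hat (p.1 : E n) k - hat (p.2 : E n) k) * (hat (p.1 : E n) l - hat (p.2 : E n) l))) =
      fun p => dist (p.1 : E n) p.2 ^ 2 := by
    funext p
    rw [Finset.sum_apply]
    simp only [Finset.sum_apply]
    exact hcost p.1 p.1.2 p.2 p.2.2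
  rw [e3] at h2
  have e4 : ∑ k, ∑ l, ∑ v : A, TensorProduct.lift (B v)
      (T k l * (hat (v : E n) k ⊗ₜ[ℚ] hat (v : E n) l)) = 0 := by
    have e5 : ∑ k, ∑ l, ∑ v : A, TensorProduct.lift (B v)
        (T k l * (hat (v : E n) k ⊗ₜ[ℚ] hat (v : E n) l)) =
        ∑ v : A, TensorProduct.lift (B v)
          (∑ k, ∑ l, T k l * (hat (v : E n) k ⊗ₜ[ℚ] hat (v : E n) l)) := by
      simp only [map_sum]
      rw [Finset.sum_congr rfl fun k _ => Finset.sum_comm, Finset.sum_comm]
    rw [e5]
    rcases isEmpty_or_nonempty A with hE | ⟨⟨v₀⟩⟩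
    · exact Finset.sum_of_isEmpty _
    · rw [Finset.sum_congr rfl fun v _ => by rw [hbal (v : E n) v.2 v₀ v₀.2],
        ← LinearMap.sum_apply, hsum, LinearMap.zero_apply]
  rw [e4, zero_add] at h2
  exact_mod_cast h2

/-- **Spherical sets imposing independent conditions on quadrics.** -/
theorem signed_of_quadric {n : ℕ} {A : Set (E n)} (hA : A.Finite) (z : E n) (ρ : ℝ)
    (hS : ∀ x ∈ A, dist x z = ρ)
    (hq : ∀ f : E n → ℝ, ∃ D : Option (Fin n) → Option (Fin n) → ℝ, ∀ v ∈ A,
      ∑ k, ∑ l, D k l * (hat v k * hat v l) = f v) :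
    HasSignedProfile A := by
  classical
  have : Fintype A := hA.fintype
  choose D hD using fun w : A => hq (fun v => if v = (w : E n) then 1 else 0)
  let P : Option (Fin n) → Option (Fin n) → ℝ := fun k l => match k, l with
    | none, none => ∑ i, z i ^ 2
    | some i, none => -2 * z i
    | none, some _ => 0
    | some i, some j => if i = j then 1 else 0
  -- evaluation of a real quadratic form, in the ring of values
  let ev : (Option (Fin n) → Option (Fin n) → ℝ) → E n → RR := fun D v =>
    ∑ k, ∑ l, (D k l ⊗ₜ[ℚ] (1 : ℝ)) * (hat v k ⊗ₜ[ℚ] hat v l)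
  have hev : ∀ D v, mulRR (ev D v) = ∑ k, ∑ l, D k l * (hat v k * hat v l) := by
    intro D v
    simp only [ev, map_sum, map_mul, mulRR_tmul, mul_one]
  let M : Matrix A A RR := fun v w => ev (D w) v
  have hM : (mulRR : RR →+* ℝ).mapMatrix M = 1 := by
    ext v w
    rw [RingHom.mapMatrix_apply, Matrix.map_apply]
    show mulRR (ev (D w) v) = _
    rw [hev, hD w v v.2, Matrix.one_apply]
    by_cases h : v = w
    · rw [if_pos (congrArg _ h), if_pos h]
    · rw [if_neg (fun h' => h (Subtype.ext h')), if_neg h]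
  have hdet : mulRR M.det = 1 := by
    have := RingHom.map_det (mulRR : RR →+* ℝ) M
    rw [hM, Matrix.det_one] at this
    exact this
  let r : A → RR := fun v => ev P v - (ρ ^ 2) ⊗ₜ[ℚ] (1 : ℝ)
  have hP : ∀ v : E n, ∑ k, ∑ l, P k l * (hat v k * hat v l) = dist v z ^ 2 := by
    intro v
    simp only [Fintype.sum_option, P, hat]
    rw [EuclideanSpace.dist_eq, Real.sq_sqrt (by positivity)]
    simp only [ite_mul, one_mul, zero_mul, Finset.sum_ite_eq, Finset.mem_univ, if_true,
      Finset.sum_const_zero, add_zero, mul_one]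
    rw [← Finset.sum_add_distrib]
    refine Finset.sum_congr rfl fun i _ => ?_
    rw [Real.dist_eq, sq_abs]
    ring
  have hr : ∀ v : A, mulRR (r v) = 0 := by
    intro v
    simp only [r, map_sub, hev, hP, mulRR_tmul, mul_one, hS v v.2, sub_self]
  let c : A → RR := M.adjugate.mulVec r
  have hc : ∀ w, mulRR (c w) = 0 := by
    intro w
    simp only [c, Matrix.mulVec, dotProduct, map_sum, map_mul, hr, mul_zero, Finset.sum_const_zero]
  have hMc : ∀ v, ∑ w, M v w * c w = M.det * r v := by
    intro v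
    have h1 : M.mulVec c = M.det • r := by
      simp only [c]
      rw [Matrix.mulVec_mulVec, Matrix.mul_adjugate, Matrix.smul_mulVec, Matrix.one_mulVec]
    have h2 := congrFun h1 v
    simpa only [Matrix.mulVec, dotProduct, Pi.smul_apply, smul_eq_mul] using h2
  refine signed_of_matrix hA (fun k l => M.det * (P k l ⊗ₜ[ℚ] (1 : ℝ)) -
    ∑ w, c w * (D w k l ⊗ₜ[ℚ] (1 : ℝ))) ?_ ?_
  · have h1 : ∀ v ∈ A, ∑ k, ∑ l, (M.det * (P k l ⊗ₜ[ℚ] (1 : ℝ)) -
        ∑ w, c w * (D w k l ⊗ₜ[ℚ] (1 : ℝ))) * (hat v k ⊗ₜ[ℚ] hat v l) =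
        M.det * ((ρ ^ 2) ⊗ₜ[ℚ] (1 : ℝ)) := by
      intro v hv
      have e1 : ∑ k, ∑ l, (M.det * (P k l ⊗ₜ[ℚ] (1 : ℝ)) -
          ∑ w, c w * (D w k l ⊗ₜ[ℚ] (1 : ℝ))) * (hat v k ⊗ₜ[ℚ] hat v l) =
          M.det * ev P v - ∑ w, ev (D w) v * c w := by
        simp only [ev, Finset.mul_sum, Finset.sum_mul, sub_mul, Finset.sum_sub_distrib]
        congr 1
        · refine Finset.sum_congr rfl fun k _ => Finset.sum_congr rfl fun l _ => ?_
          ring
        · rw [Finset.sum_congr rfl fun k _ => Finset.sum_comm, Finset.sum_comm]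
          refine Finset.sum_congr rfl fun w _ => Finset.sum_congr rfl fun k _ =>
            Finset.sum_congr rfl fun l _ => ?_
          ring
      rw [e1]
      have h2 := hMc ⟨v, hv⟩
      have h3 : ∑ w, ev (D w) v * c w = M.det * (ev P v - (ρ ^ 2) ⊗ₜ[ℚ] (1 : ℝ)) := h2
      rw [h3]
      ring
    intro v hv w hw
    rw [h1 v hv, h1 w hw]
  · intro v hv w hw
    have h1 : ∀ k l, mulRR (M.det * (P k l ⊗ₜ[ℚ] (1 : ℝ)) -
        ∑ w, c w * (D w k l ⊗ₜ[ℚ] (1 : ℝ))) = P k l := by
      intro k l
      simp only [map_sub, map_mul, map_sum, hdet, hc, zero_mul, Finset.sum_const_zero, mulRR_tmul,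
        one_mul, mul_one, sub_zero]
    simp only [h1]
    simp only [Fintype.sum_option, P, hat]
    rw [EuclideanSpace.dist_eq, Real.sq_sqrt (by positivity)]
    simp only [ite_mul, one_mul, zero_mul, Finset.sum_ite_eq, Finset.mem_univ, if_true,
      Finset.sum_const_zero, add_zero, sub_self, mul_zero, zero_add]
    refine Finset.sum_congr rfl fun i _ => ?_
    rw [Real.dist_eq, sq_abs]
    ring

end Vale.Agent.P058
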