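import Vale.Agent.P058.Bdl.B1
import Mathlib.RingTheory.TensorProduct.Basic

/-!
A finite set with a tensor profile (values in `ℝ ⊗[ℚ] ℝ`) has a signed balanced profile.
-/

namespace Vale.Agent.P058

open Finset TensorProduct

/-- The linear criterion, sufficiency. -/
theorem signed_of_tensor {n : ℕ} {A : Set (E n)} (hA : A.Finite) {κ : Type*} [Fintype κ]
    (y y' : κ → E n × ℝ)
    (hbal : ∀ v ∈ A, ∀ w ∈ A, ∑ j, (rowv (y j) v) ⊗ₜ[ℚ] (rowv (y' j) v) =
      ∑ j, (rowv (y j) w) ⊗ₜ[ℚ] (rowv (y' j) w))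
    (hcost : ∀ v ∈ A, ∀ w ∈ A,
      ∑ j, (rowv (y j) v - rowv (y j) w) * (rowv (y' j) v - rowv (y' j) w) = dist v w ^ 2) :
    HasSignedProfile A := by
  classical
  have : Fintype A := hA.fintype
  by_contra hno
  obtain ⟨B, L, hL, hBL⟩ := exists_quad_cert hno
  apply hL
  -- the sum of the certificates vanishes
  have hsum : (∑ v : A, TensorProduct.lift (B v)) = 0 := by
    apply TensorProduct.ext'
    intro c c'
    have h1 := hBL ((0 : E n), c) ((0 : E n), c')
    have e1 : (fun p : A × A => (rowv ((0 : E n), c) (p.1 : E n) - rowv ((0 : E n), c) (p.2 : E n)) *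
        (rowv ((0 : E n), c') (p.1 : E n) - rowv ((0 : E n), c') (p.2 : E n))) = 0 := by
      funext p
      simp [rowv]
    rw [e1, map_zero, Rat.cast_zero, add_zero] at h1
    have e2 : ∀ (x : ℝ) (v : E n), rowv ((0 : E n), x) v = x := by
      intro x v; simp [rowv]
    simp only [e2] at h1
    simpa only [LinearMap.sum_apply, TensorProduct.lift.tmul, LinearMap.zero_apply] using h1
  have h2 : ∑ j, (∑ v : A, B v (rowv (y j) v) (rowv (y' j) v) +
      (L (fun p : A × A => (rowv (y j) p.1 - rowv (y j) p.2) *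
        (rowv (y' j) p.1 - rowv (y' j) p.2)) : ℝ)) = 0 :=
    Finset.sum_eq_zero fun j _ => hBL (y j) (y' j)
  rw [Finset.sum_add_distrib, Finset.sum_comm, ← Rat.cast_sum, ← map_sum] at h2
  have e3 : (∑ j, fun p : A × A => (rowv (y j) (p.1 : E n) - rowv (y j) (p.2 : E n)) *
      (rowv (y' j) (p.1 : E n) - rowv (y' j) (p.2 : E n))) = fun p => dist (p.1 : E n) p.2 ^ 2 := by
    funext p
    rw [Finset.sum_apply]
    exact hcost p.1 p.1.2 p.2 p.2.2
  rw [e3] at h2
  have e4 : ∑ v : A, ∑ j, B v (rowv (y j) v) (rowv (y' j) v) = 0 := by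
    rcases isEmpty_or_nonempty A with hE | ⟨⟨v₀⟩⟩
    · exact Finset.sum_of_isEmpty _
    · have h3 : ∀ v : A, ∑ j, B v (rowv (y j) v) (rowv (y' j) v) =
          TensorProduct.lift (B v) (∑ j, (rowv (y j) (v₀ : E n)) ⊗ₜ[ℚ] (rowv (y' j) (v₀ : E n))) := by
        intro v
        rw [← hbal v v.2 v₀ v₀.2, map_sum]
        rfl
      rw [Finset.sum_congr rfl fun v _ => h3 v, ← LinearMap.sum_apply, hsum, LinearMap.zero_apply]
  rw [e4, zero_add] at h2
  exact_mod_cast h2

end Vale.Agent.P058
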