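import Vale.Agent.P058.H840.Poly
import Vale.Agent.P058.H840.Quad
import Vale.Agent.P058.H840.Neg

/-!
Translation between quadratic functions on the sphere and polynomials in stereographic coordinates.
-/

namespace Vale.Agent.P058

open Finset MvPolynomial

lemma eval_hp {m : ℕ} (s : Fin m → ℝ) (k : Option (Fin (m + 1))) :
    eval s (hp k) = (∑ k, s k ^ 2 + 1) * hat (sphPt s) k := by
  have hq := (q_pos s).ne'
  cases k with
  | none => simp [hp, hat]
  | some i =>
    refine Fin.cases ?_ (fun k => ?_) i
    · simp only [hp, hat, Fin.cases_zero, sphPt_zero, map_sub, map_sum, map_pow, eval_X, map_one]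
      rw [mul_div_cancel₀ _ hq]
    · simp only [hp, hat, Fin.cases_succ, sphPt_succ, map_mul, eval_C, eval_X]
      rw [mul_div_cancel₀ _ hq]

/-- the affine span, from interpolation by affine functions -/
theorem span_of_surj {m n : ℕ} (s : Fin n → Fin m → ℝ) (S : Finset (Fin n))
    (hS : S.card = m + 2)
    (h : ∀ g : Fin n → ℝ, ∃ c : Option (Fin (m + 1)) → ℝ, ∀ i ∈ S,
      ∑ k, c k * eval (s i) (hp k) = g i) :
    affineSpan ℝ (Set.range fun i => sphPt (s i)) = ⊤ := by
  classical
  let f : (Option (Fin (m + 1)) → ℝ) →ₗ[ℝ] (S → ℝ) :=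
    { toFun := fun c i => ∑ k, c k * eval (s i) (hp k)
      map_add' := fun c d => by
        funext i
        simp only [Pi.add_apply, add_mul, Finset.sum_add_distrib]
      map_smul' := fun r c => by
        funext i
        simp only [Pi.smul_apply, smul_eq_mul, RingHom.id_apply, Finset.mul_sum, mul_assoc] }
  have hfin : Module.finrank ℝ (Option (Fin (m + 1)) → ℝ) = Module.finrank ℝ (S → ℝ) := by
    rw [Module.finrank_fintype_fun_eq_card, Module.finrank_fintype_fun_eq_card, Fintype.card_option,
      Fintype.card_fin, Fintype.card_coe, hS]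
  have hsurj : Function.Surjective f := by
    intro g
    obtain ⟨c, hc⟩ := h (fun i => if hi : i ∈ S then g ⟨i, hi⟩ else 0)
    refine ⟨c, ?_⟩
    funext i
    have h1 := hc i i.2
    rw [dif_pos i.2] at h1
    exact h1
  have hinj : Function.Injective f :=
    (LinearMap.injective_iff_surjective_of_finrank_eq_finrank hfin).2 hsurj
  have hdual : Function.Surjective f.dualMap := LinearMap.dualMap_surjective_iff.2 hinj
  rw [eq_top_iff]
  intro y _
  let φ : Module.Dual ℝ (Option (Fin (m + 1)) → ℝ) :=
    ∑ k, hat y k • LinearMap.proj k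
  obtain ⟨ψ, hψ⟩ := hdual φ
  let w : S → ℝ := fun i => ψ (Pi.single i 1)
  have hψw : ∀ g : S → ℝ, ψ g = ∑ i, w i * g i := by
    intro g
    conv_lhs => rw [← Finset.univ_sum_single g]
    rw [map_sum]
    refine Finset.sum_congr rfl fun i _ => ?_
    have e : (Pi.single i (g i) : S → ℝ) = g i • Pi.single i (1 : ℝ) := by
      rw [← Pi.single_smul, smul_eq_mul, mul_one]
    rw [e, map_smul, smul_eq_mul, mul_comm]
  have hw : ∀ k, ∑ i : S, w i * eval (s i) (hp k) = hat y k := by
    intro k
    have h1 := LinearMap.congr_fun hψ (Pi.single k 1)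
    rw [LinearMap.dualMap_apply, hψw] at h1
    have e1 : ∀ i : S, f (Pi.single k 1) i = eval (s i) (hp k) := by
      intro i
      show ∑ l, (Pi.single k (1 : ℝ) : Option (Fin (m + 1)) → ℝ) l * eval (s i) (hp l) = _
      simp only [Pi.single_apply, ite_mul, one_mul, zero_mul, Finset.sum_ite_eq', Finset.mem_univ,
        if_true]
    simp only [e1] at h1
    rw [h1]
    simp only [φ, LinearMap.sum_apply, LinearMap.smul_apply, LinearMap.proj_apply, smul_eq_mul,
      Pi.single_apply, mul_ite, mul_one, mul_zero, Finset.sum_ite_eq', Finset.mem_univ, if_true]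
  let W : S → ℝ := fun i => w i * (∑ k, s i k ^ 2 + 1)
  have hW1 : ∑ i, W i = 1 := by
    have h1 := hw none
    simp only [eval_hp, hat, mul_one] at h1
    exact h1
  have hWy : y = ∑ i, W i • sphPt (s i) := by
    ext k
    have h1 := hw (some k)
    simp only [eval_hp, hat] at h1
    rw [← h1]
    simp only [WithLp.ofLp_sum, WithLp.ofLp_smul, Finset.sum_apply, Pi.smul_apply, smul_eq_mul, W]
    exact Finset.sum_congr rfl fun i _ => by ring
  have hmem : Finset.univ.affineCombination ℝ (fun i : S => sphPt (s i)) W ∈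
      affineSpan ℝ (Set.range fun i : S => sphPt (s i)) :=
    affineCombination_mem_affineSpan hW1 _
  rw [Finset.affineCombination_eq_linear_combination _ _ _ hW1, ← hWy] at hmem
  refine affineSpan_mono ℝ ?_ hmem
  rintro _ ⟨i, rfl⟩
  exact ⟨i, rfl⟩

/-- A relation between the values of the `jp` gives one between the values of quadratic
functions. -/
theorem relation_of_jp {m n : ℕ} (s : Fin n → Fin m → ℝ) (μ : Fin n → ℝ)
    (h : ∀ j : JJ m, ∑ i, μ i * eval (s i) (jp j) = 0) (k l : Option (Fin (m + 1))) :
    ∑ i, μ i * (eval (s i) (hp k) * eval (s i) (hp l)) = 0 := by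
  classical
  let r : Fin n → ℝ := fun i => ∑ k, s i k ^ 2
  have h1 : ∑ i, μ i = 0 := by
    have := h (.inl ())
    simpa only [jp, map_one, mul_one] using this
  have hrr : ∑ i, μ i * r i ^ 2 = 0 := by
    have := h (.inr (.inl ()))
    simpa only [jp, map_pow, map_sum, eval_X] using this
  have hx : ∀ k, ∑ i, μ i * s i k = 0 := by
    intro k
    have := h (.inr (.inr (.inl k)))
    simpa only [jp, eval_X] using this
  have hxr : ∀ k, ∑ i, μ i * (s i k * r i) = 0 := by
    intro k
    have := h (.inr (.inr (.inr (.inl k))))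
    simpa only [jp, map_mul, map_pow, map_sum, eval_X] using this
  have hxx' : ∀ k l : Fin m, l ≤ k → ∑ i, μ i * (s i k * s i l) = 0 := by
    intro k l hlk
    have := h (.inr (.inr (.inr (.inr ⟨k, ⟨l, Nat.lt_succ_of_le hlk⟩⟩))))
    simp only [jp, map_mul, eval_X] at this
    exact this
  have hxx : ∀ k l : Fin m, ∑ i, μ i * (s i k * s i l) = 0 := by
    intro k l
    rcases le_total l k with hkl | hkl
    · exact hxx' k l hkl
    · rw [← hxx' l k hkl]
      exact Finset.sum_congr rfl fun i _ => by ring
  have hr : ∑ i, μ i * r i = 0 := by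
    have e : ∑ i, μ i * r i = ∑ k, ∑ i, μ i * (s i k * s i k) := by
      rw [Finset.sum_comm]
      refine Finset.sum_congr rfl fun i _ => ?_
      simp only [r]
      rw [Finset.mul_sum]
      exact Finset.sum_congr rfl fun k _ => by ring
    rw [e]
    exact Finset.sum_eq_zero fun k _ => hxx k k
  have e0 : ∀ i, eval (s i) (hp (none : Option (Fin (m + 1)))) = r i + 1 := by
    intro i; simp only [hp, map_add, map_sum, map_pow, eval_X, map_one, r]
  have e1 : ∀ i, eval (s i) (hp (some 0 : Option (Fin (m + 1)))) = r i - 1 := by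
    intro i
    simp only [hp, Fin.cases_zero, map_sub, map_sum, map_pow, eval_X, map_one, r]
  have e2 : ∀ i (k : Fin m), eval (s i) (hp (some k.succ : Option (Fin (m + 1)))) = 2 * s i k := by
    intro i k
    simp only [hp, Fin.cases_succ, map_mul, eval_C, eval_X]
  have comb : ∀ (a b c : ℝ), ∑ i, μ i * (a * r i ^ 2 + b * r i + c) = 0 := by
    intro a b c
    have e : ∑ i, μ i * (a * r i ^ 2 + b * r i + c) =
        a * ∑ i, μ i * r i ^ 2 + b * ∑ i, μ i * r i + c * ∑ i, μ i := by
      rw [Finset.mul_sum, Finset.mul_sum, Finset.mul_sum, ← Finset.sum_add_distrib,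
        ← Finset.sum_add_distrib]
      exact Finset.sum_congr rfl fun i _ => by ring
    rw [e, hrr, hr, h1]
    ring
  have comb2 : ∀ (k : Fin m) (a b : ℝ), ∑ i, μ i * (a * (s i k * r i) + b * s i k) = 0 := by
    intro k a b
    have e : ∑ i, μ i * (a * (s i k * r i) + b * s i k) =
        a * ∑ i, μ i * (s i k * r i) + b * ∑ i, μ i * s i k := by
      rw [Finset.mul_sum, Finset.mul_sum, ← Finset.sum_add_distrib]
      exact Finset.sum_congr rfl fun i _ => by ring
    rw [e, hxr, hx]
    ring
  have c00 : ∑ i, μ i * ((r i + 1) * (r i + 1)) = 0 := by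
    rw [← comb 1 2 1]; exact Finset.sum_congr rfl fun i _ => by ring
  have c01 : ∑ i, μ i * ((r i + 1) * (r i - 1)) = 0 := by
    rw [← comb 1 0 (-1)]; exact Finset.sum_congr rfl fun i _ => by ring
  have c11 : ∑ i, μ i * ((r i - 1) * (r i - 1)) = 0 := by
    rw [← comb 1 (-2) 1]; exact Finset.sum_congr rfl fun i _ => by ring
  have c0k : ∀ k, ∑ i, μ i * ((r i + 1) * (2 * s i k)) = 0 := by
    intro k
    rw [← comb2 k 2 2]; exact Finset.sum_congr rfl fun i _ => by ring
  have c1k : ∀ k, ∑ i, μ i * ((r i - 1) * (2 * s i k)) = 0 := by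
    intro k
    rw [← comb2 k 2 (-2)]; exact Finset.sum_congr rfl fun i _ => by ring
  have ckl : ∀ k l, ∑ i, μ i * (2 * s i k * (2 * s i l)) = 0 := by
    intro k l
    have e : ∑ i, μ i * (2 * s i k * (2 * s i l)) = 4 * ∑ i, μ i * (s i k * s i l) := by
      rw [Finset.mul_sum]
      exact Finset.sum_congr rfl fun i _ => by ring
    rw [e, hxx, mul_zero]
  have symm : ∀ k l : Option (Fin (m + 1)),
      ∑ i, μ i * (eval (s i) (hp k) * eval (s i) (hp l)) = 0 →
      ∑ i, μ i * (eval (s i) (hp l) * eval (s i) (hp k)) = 0 := by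
    intro k l hkl
    rw [← hkl]
    exact Finset.sum_congr rfl fun i _ => by ring
  have b0 : ∀ l : Option (Fin (m + 1)),
      ∑ i, μ i * (eval (s i) (hp none) * eval (s i) (hp l)) = 0 := by
    intro l
    cases l with
    | none => simp only [e0]; exact c00
    | some i =>
      refine Fin.cases ?_ (fun k => ?_) i
      · simp only [e0, e1]; exact c01
      · simp only [e0, e2]; exact c0k k
  have b1 : ∀ l : Option (Fin (m + 1)),
      ∑ i, μ i * (eval (s i) (hp (some 0)) * eval (s i) (hp l)) = 0 := by
    intro l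
    cases l with
    | none => exact symm _ _ (b0 _)
    | some i =>
      refine Fin.cases ?_ (fun k => ?_) i
      · simp only [e1]; exact c11
      · simp only [e1, e2]; exact c1k k
  cases k with
  | none => exact b0 l
  | some i =>
    refine Fin.cases ?_ (fun k => ?_) i
    · exact b1 l
    · cases l with
      | none => exact symm _ _ (b0 _)
      | some j =>
        refine Fin.cases ?_ (fun l => ?_) j
        · exact symm _ _ (b1 _)
        · simp only [e2]; exact ckl k l

end Vale.Agent.P058
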